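import Vale.Agent.P277.H762.P.FinPC
import Vale.Agent.P277.H884.T.T6F

/-!
# P277: klt pairs, the multiplicities of the boundary along the flipped surfaces
-/

set_option maxSynthPendingDepth 3
set_option linter.unusedSectionVars false

open scoped Manifold ContDiff Topology
open Vale.Agent.P272.K Vale.Agent.P285.H281.FD Vale.Agent.P267.H175 Set Filter Metric

noncomputable section

namespace Vale.Agent.P277.H762.G

open Vale.Agent.P277 Vale.Agent.P277.T3 H615 H371.C H29.E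

variable {Y : Type} [TopologicalSpace Y] [T2Space Y] [CompactSpace Y]
    [ChartedSpace (Cm 4) Y] [IsManifold 𝓘(ℂ, Cm 4) ω Y]
    {χ : Chart 4 Y → Cm 4 → Matrix (Fin 4) (Fin 4) ℂ} {k s : ℕ}
    {M : Fin (k + s) → Bd Y} {m : Fin (k + s) → ℕ} {ρ : Fin (k + s) → ℝ} {H : Fin s → Type}
    [∀ i, TopologicalSpace (H i)] [∀ i, T2Space (H i)] [∀ i, CompactSpace (H i)]
    [∀ i, ConnectedSpace (H i)] [∀ i, ChartedSpace (Cm 3) (H i)]
    [∀ i, IsManifold 𝓘(ℂ, Cm 3) ω (H i)] {ι : ∀ i, H i → Y}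
    {sg : ∀ i : Fin s, (M (Fin.natAdd k i)).ι → Y → ℂ} {W : CSp} {X Z : ℕ → CSp} {r : ℕ}
    {v : Y → W.pt} {p : W.pt → (X 0).pt} {P : Bd W.pt} {G : Fin r → Set Y}
    {f : ∀ j, (X j).pt → (Z j).pt} {f' : ∀ j, (X (j + 1)).pt → (Z j).pt}
    {A : ∀ j, Set (Z j).pt} {L : ∀ j, Fin (k + s) → Bd (X j).pt} {c : ℕ → Fin (k + s) → ℕ}
    {σ : ∀ j, ∀ i : Fin s, (L j (Fin.natAdd k i)).ι → (X j).pt → ℂ}
    {n : Fin (k + s) → Fin r → ℤ} {t : ∀ e, (L 0 e).ι →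
      ((((Bd.can 4 Y).pow (m e)).mul (M e)).pow (c 0 e)).ι → Y → ℂ}

/-- the strict transforms of the `H i` are contained in the zero sets of the sections -/
theorem str_sub_zer (h : IsPG χ M m ρ ι sg v p P G f f' A L c σ n t) (j : ℕ) (i : Fin s) :
    Str (Cor (⋃ l, G l) (fun y => p (v y)) f f' (j + 1)) (range (ι i)) ⊆
      zer (L (j + 1) (Fin.natAdd k i)) (σ (j + 1) i) := by
  have h' := h.amin
  have hsm : ∀ j, IsSmall (X j) (Z j) (f j) (Amin (f j)) := fun j => (h'.flip j).flip.small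
  have hsm' : ∀ j, IsSmall (X (j + 1)) (Z j) (f' j) (Amin (f j)) := fun j =>
    (h'.flip j).flip.small'
  have hres := h.res
  have hseq := isSeq_sq hsm hsm' hres.emb' (by
    refine (hres.dim).mono ?_
    intro x hx
    obtain ⟨w, rfl⟩ := hres.psurj x
    obtain ⟨y, rfl⟩ := hres.surj w
    refine ⟨y, ?_, rfl⟩
    by_contra hy
    exact hx ⟨y, hy, rfl⟩)
  have hcor : ∀ j y x, Cor (⋃ l, G l) (fun y => p (v y)) f f' j y x ↔
      y ∈ (sq f hsm' (⋃ l, G l)ᶜ (fun y => p (v y)) j).1 ∧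
        (sq f hsm' (⋃ l, G l)ᶜ (fun y => p (v y)) j).2 y = x := fun j y x =>
    H884.G.cor_iff (D := ⋃ l, G l) (v₀ := fun y => p (v y))
      (O := fun j => (sq f hsm' (⋃ l, G l)ᶜ (fun y => p (v y)) j).1)
      (v := fun j => (sq f hsm' (⋃ l, G l)ᶜ (fun y => p (v y)) j).2) rfl rfl (fun j => by
        rw [hseq.step j]
        rfl)
      hseq.comp (fun j x x' h4 h5 => (hsm' j).inj _ _ h4 h5) j y x
  have hl : ∀ y : Y, ∃ e : Chart 4 Y, At e y := fun y =>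
    ⟨chartAt (Cm 4) y, chart_mem_atlas _ y, mem_chart_source _ y⟩
  have hstr := H371.G.isStrG hl h.lb h.bd h.c1 h.cmp h.corr h'.flip hseq rfl rfl i
  refine closure_minimal ?_ (zer_closed ((h'.flip (j + 1)).flip.lb _) ((h'.flip (j + 1)).sec i))
  rintro x ⟨y, hy, hx⟩
  obtain ⟨h1, rfl⟩ := (hcor (j + 1) y x).1 hx
  exact (hstr.mem (j + 1) y h1).2 hy

/-- klt pairs: the bad flipped surfaces satisfy `∑ b i < - a l`, sum over the `i` with `S ⊆ H i` -/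
theorem no_badPt (h : IsPG χ M m ρ ι sg v p P G f f' A L c σ n t) {a : Fin r → ℝ}
    (ha : ∀ l, a l = ∑ e, ρ e * n e l / c 0 e) (hklt : ∀ l, -1 < a l)
    (hb : ∀ i : Fin s, ρ (Fin.natAdd k i) < 1)
    (hd1 : ∀ l l', l ≠ l' → a l < 0 → a l' < 0 → Disjoint (G l) (G l'))
    (hd2 : ∀ l i, a l < 0 → Disjoint (G l) (range (ι i))) (Λ : Set (Fin r)) (j : ℕ)
    (hθ : DimLe (X (j + 1)) 1 {x | f' j x ∈ Amin (f j) ∧ ∃ l ∈ Λ, a l < 0 ∧
      ∑ i : Fin s, (Str (Cor (⋃ l, G l) (fun y => p (v y)) f f' (j + 1))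
        (range (ι i))).indicator (fun _ => ρ (Fin.natAdd k i)) x < - a l})
    (x₀ : (X (j + 1)).pt) :
    ¬ BadPt (f' j ⁻¹' Amin (f j)) (Cor (⋃ l, G l) (fun y => p (v y)) f f' (j + 1))
      (⋃ l ∈ {l | l ∈ Λ ∧ a l < 0}, G l) x₀ := by
  intro hx
  refine Vale.Agent.P277.H762.P.stPC Y χ k s M m ρ H ι sg W X Z r v p P G f f' A L c σ n t h a ha j univ
    {l | l ∈ Λ ∧ a l < 0} ∅ (fun l hl => hl.2) (fun l hl => absurd hl (notMem_empty l))
    (hθ.mono ?_) x₀ ?_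
  · rintro x ⟨ξ, R, W', w₀, γ, ch, -, -, -, -, hS, -, hw₀, h0, rfl, hγ, hx⟩
    refine ⟨hS _ (hγ w₀ hw₀).1 h0 (by show w₀ 0 * w₀ 1 = 0; rw [h0, zero_mul]), ?_⟩
    rcases hx with hx | ⟨q, hq, g, ζ, hg, -, -, -, -, hlt⟩
    · exfalso
      rcases hx w₀ hw₀ h0 with (h1 | h1) | ⟨l, hl, h2, h3⟩
      · obtain ⟨l, hl, -⟩ := mem_iUnion₂.1 h1
        exact lt_asymm (hklt l) hl
      · obtain ⟨i, hi, -⟩ := mem_iUnion₂.1 h1
        exact lt_asymm (hb i) hi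
      · rcases h3 with ⟨l', hl', hne', hy'⟩ | ⟨i, hi⟩
        · exact disjoint_left.1 (hd1 l' l hne' hl'.2 hl.2) hy' h2
        · exact disjoint_left.1 (hd2 l i hl.2) h2 hi
    · rcases hq with ⟨l, hl, -, rfl⟩ | ⟨i, hi, -⟩
      · refine ⟨l, hl.1, hl.2, ?_⟩
        have h1 : (1 : ℝ) ≤ g := by exact_mod_cast hg
        have h2 := hklt l
        have h3 : (1 + a l) * 1 ≤ (1 + a l) * g :=
          mul_le_mul_of_nonneg_left h1 (by linarith)
        have h4 : ∑ i : Fin s, (Str (Cor (⋃ l, G l) (fun y => p (v y)) f f' (j + 1))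
            (range (ι i))).indicator (fun _ => ρ (Fin.natAdd k i)) (ξ (bl w₀)) ≤
            ∑ i : Fin s, (zer (L (j + 1) (Fin.natAdd k i)) (σ (j + 1) i)).indicator
              (fun _ => ρ (Fin.natAdd k i)) (ξ (bl w₀)) :=
          Finset.sum_le_sum fun i _ => indicator_le_indicator_of_subset (str_sub_zer h j i)
            (fun _ => (h.rho _).le) _
        simp only at hlt
        linarith
      · exact absurd hi (hb i).ne
  · obtain ⟨ξ, R, W', w₀, γ, ch, h1, h2, h3, h4, h5, h6, h7, h8, h9, h10⟩ := hx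
    refine ⟨ξ, R, W', w₀, γ, ch, h1, h2, h3, h4, h5, h6, h7, h8, h9, fun w hw => ?_⟩
    obtain ⟨g1, g2, g3, g4, g5, g6⟩ := h10 w hw
    exact ⟨g1, g2, g3, g4, g5, fun g7 => ⟨⟨Or.inl (Or.inl (g6 g7).1), mem_univ _⟩, (g6 g7).2⟩⟩

end Vale.Agent.P277.H762.G
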