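import Vale.Agent.P277.StmtsG
import Vale.Agent.P277.H29.E.T7F
import Vale.Agent.P277.H29.CY.FinG

/-!
# P277, (T7G): the lexicographic form of (T7F)
-/

set_option linter.unusedSectionVars false

open scoped Manifold ContDiff Topology
open Vale.Agent.P272.K Vale.Agent.P285.H281.FD Vale.Agent.P267.H175 Set Filter Metric

noncomputable section

namespace Vale.Agent.P277.H762.G

open Vale.Agent.P277 Vale.Agent.P277.T2 Vale.Agent.P277.T3 Vale.Agent.P277.H29.CY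
  Vale.Agent.P277.H29.E

/-- the sign of `t w + (1 - t) u - x` for small `t > 0` -/
theorem ev_lex (u w x : ℝ) : ∀ᶠ t : ℝ in 𝓝[>] 0,
    (t * w + (1 - t) * u < x ↔ toLex (u, w) < toLex (x, x)) ∧
    (x < t * w + (1 - t) * u ↔ toLex (x, x) < toLex (u, w)) := by
  have hc : Tendsto (fun t : ℝ => t * w + (1 - t) * u) (𝓝[>] 0) (𝓝 u) := by
    have h1 : ContinuousAt (fun t : ℝ => t * w + (1 - t) * u) 0 := by fun_prop
    have h2 : (0 : ℝ) * w + (1 - 0) * u = u := by ring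
    have h3 : Tendsto (fun t : ℝ => t * w + (1 - t) * u) (𝓝 0) (𝓝 ((0 : ℝ) * w + (1 - 0) * u)) := h1
    rw [h2] at h3
    exact h3.mono_left nhdsWithin_le_nhds
  simp only [Prod.Lex.toLex_lt_toLex]
  rcases lt_trichotomy u x with h | h | h
  · filter_upwards [hc.eventually (gt_mem_nhds h)] with t ht
    exact ⟨⟨fun _ => Or.inl h, fun _ => ht⟩, ⟨fun h1 => absurd h1 (lt_asymm ht), fun h1 => by
      rcases h1 with h1 | h1
      · exact absurd h1 (lt_asymm h)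
      · exact absurd h1.1 h.ne'⟩⟩
  · subst h
    have h4 : ∀ᶠ t : ℝ in 𝓝[>] 0, 0 < t := self_mem_nhdsWithin
    filter_upwards [h4] with t ht
    have h5 : t * w + (1 - t) * u = u + t * (w - u) := by ring
    rw [h5]
    constructor
    · constructor
      · intro h6
        refine Or.inr ⟨rfl, ?_⟩
        by_contra h7
        have := mul_nonneg ht.le (sub_nonneg.2 (not_lt.1 h7))
        linarith
      · rintro (h6 | ⟨-, h6⟩)
        · exact absurd h6 (lt_irrefl _)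
        · have := mul_pos ht (sub_pos.2 h6)
          have h8 : t * (w - u) = -(t * (u - w)) := by ring
          linarith
    · constructor
      · intro h6
        refine Or.inr ⟨rfl, ?_⟩
        by_contra h7
        have := mul_nonneg ht.le (sub_nonneg.2 (not_lt.1 h7))
        have h8 : t * (w - u) = -(t * (u - w)) := by ring
        linarith
      · rintro (h6 | ⟨-, h6⟩)
        · exact absurd h6 (lt_irrefl _)
        · have := mul_pos ht (sub_pos.2 h6)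
          linarith
  · filter_upwards [hc.eventually (lt_mem_nhds h)] with t ht
    exact ⟨⟨fun h1 => absurd h1 (lt_asymm ht), fun h1 => by
      rcases h1 with h1 | h1
      · exact absurd h1 (lt_asymm h)
      · exact absurd h1.1 h.ne'⟩, ⟨fun _ => Or.inl h, fun _ => ht⟩⟩

/-- (T7G) -/
theorem stT7G : T3.StT7G := by
  intro Y _ _ _ _ _ χ hχ k s M hM hnef m hm hm0 ρ σ hρ hσ hρσ hsum hsum' H _ _ _ _ _ _ ι sg hbd
    hdisj W X Z r v p P G hres hne f f' A L c hc n hn hflip E₀ hE a ha b hb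
  have e1 : ∀ᶠ t : ℝ in 𝓝[>] 0, ∀ l, ∀ x ∈ ({0, -1} : Set ℝ),
      (t * (∑ e, ρ e * n e l / c 0 e) + (1 - t) * (∑ e, σ e * n e l / c 0 e) < x ↔
        toLex (∑ e, σ e * n e l / c 0 e, ∑ e, ρ e * n e l / c 0 e) < toLex (x, x)) ∧
      (x < t * (∑ e, ρ e * n e l / c 0 e) + (1 - t) * (∑ e, σ e * n e l / c 0 e) ↔
        toLex (x, x) < toLex (∑ e, σ e * n e l / c 0 e, ∑ e, ρ e * n e l / c 0 e)) := by
    rw [eventually_all]
    intro l
    have h0 := ev_lex (∑ e, σ e * n e l / c 0 e) (∑ e, ρ e * n e l / c 0 e) 0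
    have h1 := ev_lex (∑ e, σ e * n e l / c 0 e) (∑ e, ρ e * n e l / c 0 e) (-1)
    filter_upwards [h0, h1] with t h2 h3 x hx
    rcases hx with rfl | rfl
    · exact h2
    · exact h3
  have e2 : ∀ᶠ t : ℝ in 𝓝[>] 0, ∀ i : Fin s,
      (t * ρ (Fin.natAdd k i) + (1 - t) * σ (Fin.natAdd k i) < 1 ↔
        toLex (σ (Fin.natAdd k i), ρ (Fin.natAdd k i)) < toLex (1, 1)) ∧
      (1 < t * ρ (Fin.natAdd k i) + (1 - t) * σ (Fin.natAdd k i) ↔
        toLex (1, 1) < toLex (σ (Fin.natAdd k i), ρ (Fin.natAdd k i))) := by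
    rw [eventually_all]
    intro i
    exact ev_lex _ _ 1
  have e3 : ∀ᶠ t : ℝ in 𝓝[>] 0, t < 1 := by
    have : ∀ᶠ t : ℝ in 𝓝 0, t < 1 := gt_mem_nhds zero_lt_one
    exact this.filter_mono nhdsWithin_le_nhds
  have e4 : ∀ᶠ t : ℝ in 𝓝[>] 0, 0 < t := self_mem_nhdsWithin
  obtain ⟨t, ⟨⟨h1, h2⟩, h3⟩, h4⟩ := (((e1.and e2).and e3).and e4).exists
  -- the new weights
  set τ : Fin (k + s) → ℝ := fun e => t * ρ e + (1 - t) * σ e with hτ
  have hsumn : ∀ l, ∑ e, τ e * n e l / c 0 e =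
      t * (∑ e, ρ e * n e l / c 0 e) + (1 - t) * ∑ e, σ e * n e l / c 0 e := by
    intro l
    rw [Finset.mul_sum, Finset.mul_sum, ← Finset.sum_add_distrib]
    refine Finset.sum_congr rfl fun e _ => ?_
    simp only [hτ]
    ring
  set d : Fin r → ℝ := fun l => ∑ e, τ e * n e l / c 0 e with hd
  have hz : (0 : ℝ ×ₗ ℝ) = toLex ((0 : ℝ), (0 : ℝ)) := rfl
  have ho : (1 : ℝ ×ₗ ℝ) = toLex ((1 : ℝ), (1 : ℝ)) := rfl
  have hm1 : (-1 : ℝ ×ₗ ℝ) = toLex ((-1 : ℝ), (-1 : ℝ)) := rfl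
  have a0 : ∀ l, d l < 0 ↔ a l < 0 := by
    intro l
    rw [ha, hz, hd]
    simp only [hsumn]
    exact (h1 l 0 (Or.inl rfl)).1
  have a1 : ∀ l, d l < -1 ↔ a l < -1 := by
    intro l
    rw [ha, hm1, hd]
    simp only [hsumn]
    exact (h1 l (-1) (Or.inr rfl)).1
  have a2 : ∀ l, -1 < d l ↔ -1 < a l := by
    intro l
    rw [ha, hm1, hd]
    simp only [hsumn]
    exact (h1 l (-1) (Or.inr rfl)).2
  have a3 : ∀ l, d l ≤ -1 ↔ a l ≤ -1 := fun l => by
    rw [← not_lt, a2, not_lt]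
  have a4 : ∀ l, -1 ≤ d l ↔ -1 ≤ a l := fun l => by
    rw [← not_lt, a1, not_lt]
  have b1 : ∀ i, 1 < τ (Fin.natAdd k i) ↔ 1 < b i := by
    intro i
    rw [hb, ho]
    exact (h2 i).2
  have b0 : ∀ i, τ (Fin.natAdd k i) < 1 ↔ b i < 1 := by
    intro i
    rw [hb, ho]
    exact (h2 i).1
  have b2 : ∀ i, 1 ≤ τ (Fin.natAdd k i) ↔ 1 ≤ b i := fun i => by
    rw [← not_lt, b0, not_lt]
  obtain ⟨E, rfl, hE'⟩ : ∃ E : ∀ j, Set (X j).pt, E 0 = E₀ ∧ FlipsIn f f' E := by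
    rcases hE with hE | hE
    · refine flipsIn_of_eff (ρ := ρ) (A := A) hc (fun j => ?_) hE
      simpa using hflip j 1 one_pos le_rfl
    · exact hE
  have hp := tau_pos hρ hσ hρσ h4 h3 (τ := τ) fun e => rfl
  have hs := tau_sum hsum hsum' (τ := τ) (t := t) fun e => rfl
  have hfl : ∀ j, IsFlipR (X j) (Z j) (X (j + 1)) (f j) (f' j) (A j) (L j) (L (j + 1)) (c j)
      (c (j + 1)) τ := fun j => hflip j t h4 h3.le
  refine ⟨fun h => ?_, fun h => ?_⟩
  · simp only [← a0, ← a1, ← a2, ← a3, ← a4, ← b1, ← b2] at h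
    exact stT4EF Y χ hχ k s M hM hnef m hm hm0 τ hp hs H ι sg hbd hdisj W X Z r v p P G hres hne
      f f' A L c hc n hn hfl E hE' d (fun l => rfl) h.2 h.1
  · simp only [← a0, ← a2, ← b0] at h
    obtain ⟨hb', hklt, hd1, hd2, hcen⟩ := h
    exact stT4EK Y χ hχ k s M hM hnef m hm hm0 τ hp hs H ι sg hbd hdisj hb' W X Z r v p P G hres
      hne f f' A L c hc n hn hfl d (fun l => rfl) hklt hd1 hd2 E hE' hcen

end Vale.Agent.P277.H762.G
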