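import Vale.Agent.P277.StmtsL
import Vale.Agent.P277.H762.G.T7G
import Vale.Agent.P277.H762.G.Num
import Vale.Agent.P277.H29.E.T7H

/-!
# P277, (T7L)
-/

set_option linter.unusedSectionVars false
set_option maxSynthPendingDepth 3

open scoped Manifold ContDiff Topology
open Vale.Agent.P272.K Vale.Agent.P285.H281.FD Vale.Agent.P267.H175 Set Filter Metric

noncomputable section

namespace Vale.Agent.P277.H762.G

open Vale.Agent.P277 Vale.Agent.P277.T2 Vale.Agent.P277.T3 Vale.Agent.P277.H29.CY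
  Vale.Agent.P277.H29.E

/-- klt pairs: the alternative -/
theorem klt_alt {Y : Type} [TopologicalSpace Y] [T2Space Y] [CompactSpace Y]
    [ChartedSpace (Cm 4) Y]
    [IsManifold 𝓘(ℂ, Cm 4) ω Y] {χ : Chart 4 Y → Cm 4 → Matrix (Fin 4) (Fin 4) ℂ}
    (hχ : IsKahler χ) {k s : ℕ} {M : Fin (k + s) → Bd Y} (hM : ∀ e, IsLB 4 (M e))
    (hnef : ∀ e : Fin k, Nef χ (M (Fin.castAdd s e))) {m : Fin (k + s) → ℕ}
    (hm : ∀ e : Fin k, 1 ≤ m (Fin.castAdd s e)) (hm0 : ∀ i : Fin s, m (Fin.natAdd k i) = 0)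
    {ρ : Fin (k + s) → ℝ} (hρ : ∀ e, 0 < ρ e) (hsum : ∑ e, ρ e * m e = 1) {H : Fin s → Type}
    [∀ i, TopologicalSpace (H i)] [∀ i, T2Space (H i)] [∀ i, CompactSpace (H i)]
    [∀ i, ConnectedSpace (H i)] [∀ i, ChartedSpace (Cm 3) (H i)]
    [∀ i, IsManifold 𝓘(ℂ, Cm 3) ω (H i)] {ι : ∀ i, H i → Y}
    {sg : ∀ i : Fin s, (M (Fin.natAdd k i)).ι → Y → ℂ}
    (hbd : ∀ i, IsBd (ι i) (M (Fin.natAdd k i)) (sg i))
    (hdisj : Pairwise fun i j => Disjoint (range (ι i)) (range (ι j)))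
    {W : CSp} {X Z : ℕ → CSp} {r : ℕ} {v : Y → W.pt} {p : W.pt → (X 0).pt} {P : Bd W.pt}
    {G : Fin r → Set Y} (hres : T2.IsRes v p P G) (hne : ∀ i, ¬ range (ι i) ⊆ ⋃ l, G l)
    {f : ∀ j, (X j).pt → (Z j).pt} {f' : ∀ j, (X (j + 1)).pt → (Z j).pt}
    {A : ∀ j, Set (Z j).pt} {L : ∀ j, Fin (k + s) → Bd (X j).pt} {c : ℕ → Fin (k + s) → ℕ}
    (hc : ∀ j e, 1 ≤ c j e) {n : Fin (k + s) → Fin r → ℤ}
    (hn : ∃ t, T2.IsCmpV (fun y => p (v y)) (L 0)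
      (fun e => (((Bd.can 4 Y).pow (m e)).mul (M e)).pow (c 0 e)) G n t)
    (hflip : ∀ j, IsFlipR (X j) (Z j) (X (j + 1)) (f j) (f' j) (A j) (L j) (L (j + 1)) (c j)
      (c (j + 1)) ρ)
    {a : Fin r → ℝ} (ha : ∀ l, a l = ∑ e, ρ e * n e l / c 0 e)
    (hb : ∀ i : Fin s, ρ (Fin.natAdd k i) < 1) (hklt : ∀ l, -1 < a l)
    (hd1 : ∀ l l', l ≠ l' → a l < 0 → a l' < 0 → Disjoint (G l) (G l'))
    (hd2 : ∀ l i, a l < 0 → Disjoint (G l) (range (ι i)))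
    (h2 : ∃ J, ∀ j ≥ J, DimLe (X (j + 1)) 1 {x | f' j x ∈ Amin (f j) ∧
      ∃ l, a l < 0 ∧ ZD (fun y => p (v y)) (hit f f') (G l) ∧
        ∑ i : Fin s, (Str (Cor (⋃ l, G l) (fun y => p (v y)) f f' (j + 1))
          (range (ι i))).indicator (fun _ => ρ (Fin.natAdd k i)) x < - a l})
    (h1 : ∀ j, DimLe (X (j + 1)) 1 {x | f' j x ∈ Amin (f j) ∧ ¬ IsReg 4 (X (j + 1)) x ∧
      x ∈ closure (Val (Cor (⋃ l, G l) (fun y => p (v y)) f f' (j + 1))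
        (⋃ l ∈ {l | a l < 0 ∧ ZD (fun y => p (v y)) (hit f f') (G l)}, G l))}) : False := by
  obtain ⟨J, h2⟩ := h2
  obtain ⟨L', c', τ, t, hc', hcmp, hcorr, hcc, hfl⟩ :=
    H371.G.wrap_core (ι := ι) hM hm0 hbd hres hc hn hflip
  have h' : IsPG χ M m ρ ι sg v p P G f f' A L' c' τ n t :=
    ⟨hχ, hM, hnef, hm, hm0, hρ, hsum, hbd, hdisj, hres, hne, hc', hcmp, hcorr, hfl⟩
  have ha' : ∀ l, a l = ∑ e, ρ e * n e l / c' 0 e := by
    intro l
    simp only [hcc]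
    exact ha l
  have hcross : ∀ K : Set (Fin r), (∀ l ∈ K, a l < 0) → cross ι G K = ∅ := by
    intro K hK
    refine eq_empty_of_forall_notMem ?_
    rintro y ⟨l, hl, hy, ⟨l', hl', hne', hy'⟩ | ⟨i, hi⟩⟩
    · exact disjoint_left.1 (hd1 l' l hne' (hK l' hl') (hK l hl)) hy' hy
    · exact disjoint_left.1 (hd2 l i (hK l hl)) hy hi
  refine stT7H_fst hχ hM hnef hm hm0 hρ hsum hbd hdisj hres hne hc hn hflip ha
    ⟨J, fun j hj => ?_⟩ fun j => (h1 j).mono ?_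
  · have hneX : Nonempty (X (j + 1)).pt := by
      have h3 := (hflip (j + 1)).ninj
      rw [Function.Injective] at h3
      push Not at h3
      obtain ⟨x, -⟩ := h3
      exact ⟨x⟩
    refine dimLe_empty.mono ?_
    intro x hx
    refine (no_badPt h' ha' hklt hb hd1 hd2 {l | ZD (fun y => p (v y)) (hit f f') (G l)} j
      ((h2 j hj).mono ?_) x ?_).elim
    · rintro x ⟨g1, l, g2, g3, g4⟩
      exact ⟨g1, l, g3, g2, g4⟩
    · obtain ⟨ξ, r', W', w₀, γ, ch, g1, g2, g3, g4, g5, g6, g7, g8, g9, g10⟩ := hx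
      refine ⟨ξ, r', W', w₀, γ, ch, g1, g2, g3, g4, g5, g6, g7, g8, g9, fun w hw => ?_⟩
      obtain ⟨k1, k2, k3, k4, k5, k6⟩ := g10 w hw
      refine ⟨k1, k2, k3, k4, k5, fun h0 => ⟨?_, (k6 h0).2⟩⟩
      obtain ⟨hy, -⟩ := (k6 h0).1
      rw [hcross _ fun l hl => hl.2, union_empty] at hy
      rcases hy with hy | hy
      · obtain ⟨l, hl, hy⟩ := mem_iUnion₂.1 hy
        rcases hl.2 with h3 | h3
        · exact absurd (hklt l) (not_lt.2 h3)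
        · exact mem_iUnion₂.2 ⟨l, ⟨h3, hl.1⟩, hy⟩
      · obtain ⟨i, hi, -⟩ := mem_iUnion₂.1 hy
        exact absurd (hb i) (not_lt.2 hi)
  · rintro x ⟨g1, g2, hx | hx⟩
    · exfalso
      obtain ⟨y, hy, -⟩ := hx
      have h3 : (T3.bad ι G {l | a l < -1} {i | 1 < ρ (Fin.natAdd k i)} ∪
          cross ι G {l | -1 ≤ a l ∧ a l < 0}) = ∅ := by
        rw [hcross _ fun l hl => hl.2, union_empty]
        refine eq_empty_of_forall_notMem fun y hy => ?_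
        rcases hy with hy | hy
        · obtain ⟨l, hl, -⟩ := mem_iUnion₂.1 hy
          exact lt_asymm (hklt l) hl
        · obtain ⟨i, hi, -⟩ := mem_iUnion₂.1 hy
          exact lt_asymm (hb i) hi
      rw [h3, empty_inter, closure_empty] at hy
      exact hy
    · refine ⟨g1, g2, ?_⟩
      have h3 : {l | (-1 ≤ a l ∧ a l < 0) ∧ ZD (fun y => p (v y)) (hit f f') (G l)} =
          {l | a l < 0 ∧ ZD (fun y => p (v y)) (hit f f') (G l)} := by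
        ext l
        exact ⟨fun h => ⟨h.1.2, h.2⟩, fun h => ⟨⟨(hklt l).le, h.1⟩, h.2⟩⟩
      rw [h3] at hx
      exact hx

theorem sum_toLex {s : ℕ} (I : Finset (Fin s)) (x y : Fin s → ℝ) :
    ∑ i ∈ I, toLex (x i, y i) = toLex (∑ i ∈ I, x i, ∑ i ∈ I, y i) := by
  classical
  induction I using Finset.induction_on with
  | empty => rfl
  | insert i I hi ih =>
    rw [Finset.sum_insert hi, Finset.sum_insert hi, Finset.sum_insert hi, ih]
    rfl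

/-- (T7L) -/
theorem stT7L : T3.StT7L := by
  classical
  intro Y _ _ _ _ _ χ hχ k s M hM hnef m hm hm0 ρ σ hρ hσ hρσ hsum hsum' H _ _ _ _ _ _ ι sg hbd
    hdisj W X Z r v p P G hres hne f f' A L c hc n hn hflip a ha b hb
  have e1 : ∀ᶠ t : ℝ in 𝓝[>] 0, ∀ l, ∀ x ∈ ({0, -1} : Set ℝ),
      (t * (∑ e, ρ e * n e l / c 0 e) + (1 - t) * (∑ e, σ e * n e l / c 0 e) < x ↔
        toLex (∑ e, σ e * n e l / c 0 e, ∑ e, ρ e * n e l / c 0 e) < toLex (x, x)) ∧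
      (x < t * (∑ e, ρ e * n e l / c 0 e) + (1 - t) * (∑ e, σ e * n e l / c 0 e) ↔
        toLex (x, x) < toLex (∑ e, σ e * n e l / c 0 e, ∑ e, ρ e * n e l / c 0 e)) := by
    rw [eventually_all]
    intro l
    have h0 := ev_lex (∑ e, σ e * n e l / c 0 e) (∑ e, ρ e * n e l / c 0 e) 0
    have h1 := ev_lex (∑ e, σ e * n e l / c 0 e) (∑ e, ρ e * n e l / c 0 e) (-1)
    filter_upwards [h0, h1] with t h2 h3 x hx
    rcases hx with rfl | rfl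
    · exact h2
    · exact h3
  have e2 : ∀ᶠ t : ℝ in 𝓝[>] 0, ∀ i : Fin s,
      (t * ρ (Fin.natAdd k i) + (1 - t) * σ (Fin.natAdd k i) < 1 ↔
        toLex (σ (Fin.natAdd k i), ρ (Fin.natAdd k i)) < toLex (1, 1)) ∧
      (1 < t * ρ (Fin.natAdd k i) + (1 - t) * σ (Fin.natAdd k i) ↔
        toLex (1, 1) < toLex (σ (Fin.natAdd k i), ρ (Fin.natAdd k i))) := by
    rw [eventually_all]
    intro i
    exact ev_lex _ _ 1
  have e2' : ∀ᶠ t : ℝ in 𝓝[>] 0, ∀ (l : Fin r) (I : Finset (Fin s)),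
      t * ((∑ i ∈ I, ρ (Fin.natAdd k i)) + ∑ e, ρ e * n e l / c 0 e) +
        (1 - t) * ((∑ i ∈ I, σ (Fin.natAdd k i)) + ∑ e, σ e * n e l / c 0 e) < 0 →
      toLex ((∑ i ∈ I, σ (Fin.natAdd k i)) + ∑ e, σ e * n e l / c 0 e,
        (∑ i ∈ I, ρ (Fin.natAdd k i)) + ∑ e, ρ e * n e l / c 0 e) < toLex ((0 : ℝ), (0 : ℝ)) := by
    rw [eventually_all]
    intro l
    rw [eventually_all]
    intro I
    filter_upwards [ev_lex ((∑ i ∈ I, σ (Fin.natAdd k i)) + ∑ e, σ e * n e l / c 0 e)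
      ((∑ i ∈ I, ρ (Fin.natAdd k i)) + ∑ e, ρ e * n e l / c 0 e) 0] with t ht using ht.1.1
  have e3 : ∀ᶠ t : ℝ in 𝓝[>] 0, t < 1 := by
    have : ∀ᶠ t : ℝ in 𝓝 0, t < 1 := gt_mem_nhds zero_lt_one
    exact this.filter_mono nhdsWithin_le_nhds
  have e4 : ∀ᶠ t : ℝ in 𝓝[>] 0, 0 < t := self_mem_nhdsWithin
  obtain ⟨t, ⟨⟨⟨h1, h2⟩, h2'⟩, h3⟩, h4⟩ := ((((e1.and e2).and e2').and e3).and e4).exists
  -- the new weights
  set τ : Fin (k + s) → ℝ := fun e => t * ρ e + (1 - t) * σ e with hτ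
  have hsumn : ∀ l, ∑ e, τ e * n e l / c 0 e =
      t * (∑ e, ρ e * n e l / c 0 e) + (1 - t) * ∑ e, σ e * n e l / c 0 e := by
    intro l
    rw [Finset.mul_sum, Finset.mul_sum, ← Finset.sum_add_distrib]
    refine Finset.sum_congr rfl fun e _ => ?_
    simp only [hτ]
    ring
  set d : Fin r → ℝ := fun l => ∑ e, τ e * n e l / c 0 e with hd
  have hz : (0 : ℝ ×ₗ ℝ) = toLex ((0 : ℝ), (0 : ℝ)) := rfl
  have ho : (1 : ℝ ×ₗ ℝ) = toLex ((1 : ℝ), (1 : ℝ)) := rfl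
  have hm1 : (-1 : ℝ ×ₗ ℝ) = toLex ((-1 : ℝ), (-1 : ℝ)) := rfl
  have a0 : ∀ l, d l < 0 ↔ a l < 0 := by
    intro l
    rw [ha, hz, hd]
    simp only [hsumn]
    exact (h1 l 0 (Or.inl rfl)).1
  have a1 : ∀ l, d l < -1 ↔ a l < -1 := by
    intro l
    rw [ha, hm1, hd]
    simp only [hsumn]
    exact (h1 l (-1) (Or.inr rfl)).1
  have a2 : ∀ l, -1 < d l ↔ -1 < a l := by
    intro l
    rw [ha, hm1, hd]
    simp only [hsumn]
    exact (h1 l (-1) (Or.inr rfl)).2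
  have a3 : ∀ l, d l ≤ -1 ↔ a l ≤ -1 := fun l => by
    rw [← not_lt, a2, not_lt]
  have a4 : ∀ l, -1 ≤ d l ↔ -1 ≤ a l := fun l => by
    rw [← not_lt, a1, not_lt]
  have b1 : ∀ i, 1 < τ (Fin.natAdd k i) ↔ 1 < b i := by
    intro i
    rw [hb, ho]
    exact (h2 i).2
  have b0 : ∀ i, τ (Fin.natAdd k i) < 1 ↔ b i < 1 := by
    intro i
    rw [hb, ho]
    exact (h2 i).1
  have b2 : ∀ i, 1 ≤ τ (Fin.natAdd k i) ↔ 1 ≤ b i := fun i => by
    rw [← not_lt, b0, not_lt]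
  have hp := tau_pos hρ hσ hρσ h4 h3 (τ := τ) fun e => rfl
  have hs := tau_sum hsum hsum' (τ := τ) (t := t) fun e => rfl
  have hfl : ∀ j, IsFlipR (X j) (Z j) (X (j + 1)) (f j) (f' j) (A j) (L j) (L (j + 1)) (c j)
      (c (j + 1)) τ := fun j => hflip j t h4 h3.le
  refine ⟨fun h => ?_, fun h => ?_, fun E₀ hE₀ => ?_⟩
  · simp only [← a0, ← a1, ← a2, ← a3, ← a4, ← b1, ← b2] at h
    exact stT7H_fst hχ hM hnef hm hm0 hp hs hbd hdisj hres hne hc hn hfl (fun l => rfl) h.1 h.2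
  · obtain ⟨hb', hklt, hd1, hd2, ⟨J, h5⟩, h6⟩ := h
    simp only [← a0, ← a2, ← b0] at hb' hklt hd1 hd2 h6
    refine klt_alt hχ hM hnef hm hm0 hp hs hbd hdisj hres hne hc hn hfl (a := d) (fun l => rfl)
      hb' hklt hd1 hd2 ⟨J, fun j hj => (h5 j hj).mono ?_⟩ h6
    rintro x ⟨g1, l, g2, g3, g4⟩
    refine ⟨g1, l, (a0 l).1 g2, g3, ?_⟩
    set I : Finset (Fin s) := Finset.univ.filter fun i =>
      x ∈ Str (Cor (⋃ l, G l) (fun y => p (v y)) f f' (j + 1)) (range (ι i)) with hI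
    have k1 : ∀ {R : Type} [AddCommMonoid R] (x' : Fin s → R), ∑ i : Fin s, (Str (Cor (⋃ l, G l)
        (fun y => p (v y)) f f' (j + 1)) (range (ι i))).indicator (fun _ => x' i) x =
        ∑ i ∈ I, x' i := by
      intro R _ x'
      rw [hI, Finset.sum_filter]
      refine Finset.sum_congr rfl fun i _ => ?_
      rw [Set.indicator_apply]
    rw [k1] at g4 ⊢
    have k2 : ∑ i ∈ I, b i = toLex (∑ i ∈ I, σ (Fin.natAdd k i), ∑ i ∈ I, ρ (Fin.natAdd k i)) := by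
      rw [← sum_toLex]
      exact Finset.sum_congr rfl fun i _ => hb i
    have k3 : ∑ i ∈ I, τ (Fin.natAdd k i) =
        t * ∑ i ∈ I, ρ (Fin.natAdd k i) + (1 - t) * ∑ i ∈ I, σ (Fin.natAdd k i) := by
      rw [Finset.mul_sum, Finset.mul_sum, ← Finset.sum_add_distrib]
    have k4 : d l = t * (∑ e, ρ e * n e l / c 0 e) + (1 - t) * ∑ e, σ e * n e l / c 0 e :=
      hsumn l
    have k5 := h2' l I (by rw [k3, k4] at g4; linarith)
    rw [← sub_neg_eq_add, ← sub_neg_eq_add] at k5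
    rw [Prod.Lex.toLex_lt_toLex] at k5
    rw [k2, ha]
    show toLex _ < toLex (-(∑ e, σ e * n e l / c 0 e), -(∑ e, ρ e * n e l / c 0 e))
    rw [Prod.Lex.toLex_lt_toLex]
    simp only at k5 ⊢
    rcases k5 with k5 | ⟨k5, k6⟩
    · exact Or.inl (by linarith)
    · exact Or.inr ⟨by linarith, by linarith⟩
  · obtain ⟨E, rfl, hE'⟩ := flipsIn_of_eff (ρ := ρ) (A := A) hc (fun j => by
      simpa using hflip j 1 one_pos le_rfl) hE₀
    exact FlipsIn.hit_sub hE'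

end Vale.Agent.P277.H762.G
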