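import Vale.Agent.P277.StmtsK
import Vale.Agent.P277.H762.G.T7L
import Vale.Agent.P277.H762.G.Wrap2
import Vale.Agent.P277.H762.P.AeSeq
import Vale.Agent.P277.H371.T.T6I

/-!
# P277, (KLT)
-/

set_option linter.unusedSectionVars false
set_option maxSynthPendingDepth 3

open scoped Manifold ContDiff Topology
open Vale.Agent.P272.K Vale.Agent.P285.H281.FD Vale.Agent.P267.H175 Set Filter Metric

noncomputable section

namespace Vale.Agent.P277.H762.G

open Vale.Agent.P277 Vale.Agent.P277.T2 Vale.Agent.P277.T3 Vale.Agent.P277.H29.CY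
  Vale.Agent.P277.H29.E

theorem pow_one_bd {T : Type} (L : Bd T) : L.pow 1 = L := by
  cases L
  simp [Bd.pow]

/-- (KLT) -/
theorem stKlt : T3.StKlt := by
  intro Y _ _ _ _ _ χ hχ k s M hM hnef m hm hm0 ρ hρ hsum H _ _ _ _ _ _ ι sg hbd
    hdisj W X Z r v p P G hres hne f f' A L c hc n hn hflip a ha hb hklt hd1 hd2
  obtain ⟨L', c', τ, t, hc', hcmp, hcorr, hcc, hLL, hfl⟩ :=
    wrap_core2 (ι := ι) hM hm0 hbd hres hc hn hflip
  have h' : IsPG χ M m ρ ι sg v p P G f f' A L' c' τ n t :=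
    ⟨hχ, hM, hnef, hm, hm0, hρ, hsum, hbd, hdisj, hres, hne, hc', hcmp, hcorr, hfl⟩
  have ha' : ∀ l, a l = ∑ e, ρ e * n e l / c' 0 e := by
    intro l
    simp only [hcc]
    exact ha l
  have hcross : ∀ K : Set (Fin r), (∀ l ∈ K, a l < 0) → cross ι G K = ∅ := by
    intro K hK
    refine eq_empty_of_forall_notMem ?_
    rintro y ⟨l, hl, hy, ⟨l', hl', hne', hy'⟩ | ⟨i, hi⟩⟩
    · exact disjoint_left.1 (hd1 l' l hne' (hK l' hl') (hK l hl)) hy' hy
    · exact disjoint_left.1 (hd2 l i (hK l hl)) hy hi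
  have hempty : T3.bad ι G {l | a l < -1} {i | 1 < ρ (Fin.natAdd k i)} ∪
      cross ι G {l | -1 ≤ a l ∧ a l < 0} = ∅ := by
    rw [hcross _ fun l hl => hl.2, union_empty]
    refine eq_empty_of_forall_notMem fun y hy => ?_
    rcases hy with hy | hy
    · obtain ⟨l, hl, -⟩ := mem_iUnion₂.1 hy
      exact lt_asymm (hklt l) hl
    · obtain ⟨i, hi, -⟩ := mem_iUnion₂.1 hy
      exact lt_asymm (hb i) hi
  have h6 := H371.T.stT6I Y χ hχ k s M hM hnef m hm hm0 ρ hρ hsum H ι sg hbd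
    hdisj W X Z r v p P G hres hne f f' A L c hc n hn hflip a ha
  refine ⟨?_, fun ⟨hJ, h⟩ => ?_, fun ε hε hτ j x hx => ?_⟩
  · obtain ⟨J, hJ⟩ := h6.1
    refine ⟨J, fun j hj => (hJ j hj).mono ?_⟩
    rintro x ⟨g1, g2⟩
    refine ⟨g1, g2, ?_⟩
    rintro ⟨y, hy, -⟩
    rw [hempty, empty_inter, closure_empty] at hy
    exact hy
  · rcases h with h | hr
    · exact klt_alt hχ hM hnef hm hm0 hρ hsum hbd hdisj hres hne hc hn hflip ha hb hklt hd1 hd2
        hJ h
    · obtain ⟨J, hJ⟩ := hJ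
      refine h6.2 hr ⟨J, fun j hj => ?_⟩
      have hneX : Nonempty (X (j + 1)).pt := by
        have h3 := (hflip (j + 1)).ninj
        rw [Function.Injective] at h3
        push Not at h3
        obtain ⟨x, -⟩ := h3
        exact ⟨x⟩
      refine ⟨dimLe_empty.mono ?_, dimLe_empty.mono ?_⟩
      · intro x hx
        refine (no_badPt h' ha' hklt hb hd1 hd2 {l | ZD (fun y => p (v y)) (hit f f') (G l)} j
          ((hJ j hj).mono ?_) x ?_).elim
        · rintro x ⟨g1, l, g2, g3, g4⟩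
          exact ⟨g1, l, g3, g2, g4⟩
        · obtain ⟨ξ, r', W', w₀, γ, ch, g1, g2, g3, g4, g5, g6, g7, g8, g9, g10⟩ := hx
          refine ⟨ξ, r', W', w₀, γ, ch, g1, g2, g3, g4, g5, g6, g7, g8, g9, fun w hw => ?_⟩
          obtain ⟨k1, k2, k3, k4, k5, k6⟩ := g10 w hw
          refine ⟨k1, k2, k3, k4, k5, fun h0 => ⟨?_, (k6 h0).2⟩⟩
          obtain ⟨hy, -⟩ := (k6 h0).1
          rw [hcross _ fun l hl => hl.2, union_empty] at hy
          rcases hy with hy | hy
          · obtain ⟨l, hl, hy⟩ := mem_iUnion₂.1 hy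
            rcases hl.2 with h3 | h3
            · exact absurd (hklt l) (not_lt.2 h3)
            · exact mem_iUnion₂.2 ⟨l, ⟨h3, hl.1⟩, hy⟩
          · obtain ⟨i, hi, -⟩ := mem_iUnion₂.1 hy
            exact absurd (hb i) (not_lt.2 hi)
      · rintro x ⟨-, -, y, hy, -⟩
        rw [hempty, empty_inter, closure_empty] at hy
        exact hy
  · have hL0 : L' 0 = L 0 := by
      funext e
      rw [hLL, pow_one_bd]
    have hc0 : c' 0 = c 0 := funext hcc
    have hτ' : IsRTriv (X 0) (L' 0) (c' 0)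
        (fun e => ρ e + Fin.append (fun _ : Fin k => 0) ε e) := by
      rw [hL0, hc0]
      exact hτ
    obtain ⟨i, h1, h2⟩ := Vale.Agent.P277.H762.P.ae_seq hc' (fun j => (hfl j).flip)
      (fun j i => (hfl j).sec i) hε (τ := fun e => ρ e + Fin.append (fun _ : Fin k => 0) ε e)
      (fun e => by simp [Fin.append_left]) (fun i => by simp [Fin.append_right]) hτ' j hx
    exact ⟨i, h1, (H884.T.cor_dense h' j).2 i h2⟩

end Vale.Agent.P277.H762.G
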