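import Vale.Agent.P277.H762.G.T7G

/-!
# P277: the choice of `t` for the lexicographic forms
-/

set_option linter.unusedSectionVars false

open scoped Manifold ContDiff Topology
open Vale.Agent.P272.K Vale.Agent.P285.H281.FD Vale.Agent.P267.H175 Set Filter Metric

noncomputable section

namespace Vale.Agent.P277.H762.G

/-- the choice of `t` -/
theorem exists_t {K r s : ℕ} (ρ σ : Fin K → ℝ) (n : Fin K → Fin r → ℤ) (c : Fin K → ℕ)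
    (β : Fin s → Fin K) {a : Fin r → ℝ ×ₗ ℝ}
    (ha : ∀ l, a l = toLex (∑ e, σ e * n e l / c e, ∑ e, ρ e * n e l / c e))
    {b : Fin s → ℝ ×ₗ ℝ} (hb : ∀ i, b i = toLex (σ (β i), ρ (β i))) :
    ∃ t : ℝ, 0 < t ∧ t < 1 ∧
      (∀ l, ∑ e, (t * ρ e + (1 - t) * σ e) * n e l / c e < 0 ↔ a l < 0) ∧
      (∀ l, ∑ e, (t * ρ e + (1 - t) * σ e) * n e l / c e < -1 ↔ a l < -1) ∧
      (∀ l, -1 < ∑ e, (t * ρ e + (1 - t) * σ e) * n e l / c e ↔ -1 < a l) ∧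
      (∀ l, ∑ e, (t * ρ e + (1 - t) * σ e) * n e l / c e ≤ -1 ↔ a l ≤ -1) ∧
      (∀ l, -1 ≤ ∑ e, (t * ρ e + (1 - t) * σ e) * n e l / c e ↔ -1 ≤ a l) ∧
      (∀ i, t * ρ (β i) + (1 - t) * σ (β i) < 1 ↔ b i < 1) ∧
      (∀ i, 1 < t * ρ (β i) + (1 - t) * σ (β i) ↔ 1 < b i) ∧
      (∀ i, 1 ≤ t * ρ (β i) + (1 - t) * σ (β i) ↔ 1 ≤ b i) := by
  have e1 : ∀ᶠ t : ℝ in 𝓝[>] 0, ∀ l, ∀ x ∈ ({0, -1} : Set ℝ),
      (t * (∑ e, ρ e * n e l / c e) + (1 - t) * (∑ e, σ e * n e l / c e) < x ↔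
        toLex (∑ e, σ e * n e l / c e, ∑ e, ρ e * n e l / c e) < toLex (x, x)) ∧
      (x < t * (∑ e, ρ e * n e l / c e) + (1 - t) * (∑ e, σ e * n e l / c e) ↔
        toLex (x, x) < toLex (∑ e, σ e * n e l / c e, ∑ e, ρ e * n e l / c e)) := by
    rw [eventually_all]
    intro l
    have h0 := ev_lex (∑ e, σ e * n e l / c e) (∑ e, ρ e * n e l / c e) 0
    have h1 := ev_lex (∑ e, σ e * n e l / c e) (∑ e, ρ e * n e l / c e) (-1)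
    filter_upwards [h0, h1] with t h2 h3 x hx
    rcases hx with rfl | rfl
    · exact h2
    · exact h3
  have e2 : ∀ᶠ t : ℝ in 𝓝[>] 0, ∀ i : Fin s,
      (t * ρ (β i) + (1 - t) * σ (β i) < 1 ↔ toLex (σ (β i), ρ (β i)) < toLex (1, 1)) ∧
      (1 < t * ρ (β i) + (1 - t) * σ (β i) ↔ toLex (1, 1) < toLex (σ (β i), ρ (β i))) := by
    rw [eventually_all]
    intro i
    exact ev_lex _ _ 1
  have e3 : ∀ᶠ t : ℝ in 𝓝[>] 0, t < 1 := by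
    have : ∀ᶠ t : ℝ in 𝓝 0, t < 1 := gt_mem_nhds zero_lt_one
    exact this.filter_mono nhdsWithin_le_nhds
  have e4 : ∀ᶠ t : ℝ in 𝓝[>] 0, 0 < t := self_mem_nhdsWithin
  obtain ⟨t, ⟨⟨h1, h2⟩, h3⟩, h4⟩ := (((e1.and e2).and e3).and e4).exists
  have hsumn : ∀ l, ∑ e, (t * ρ e + (1 - t) * σ e) * n e l / c e =
      t * (∑ e, ρ e * n e l / c e) + (1 - t) * ∑ e, σ e * n e l / c e := by
    intro l
    rw [Finset.mul_sum, Finset.mul_sum, ← Finset.sum_add_distrib]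
    refine Finset.sum_congr rfl fun e _ => ?_
    ring
  have hz : (0 : ℝ ×ₗ ℝ) = toLex ((0 : ℝ), (0 : ℝ)) := rfl
  have ho : (1 : ℝ ×ₗ ℝ) = toLex ((1 : ℝ), (1 : ℝ)) := rfl
  have hm1 : (-1 : ℝ ×ₗ ℝ) = toLex ((-1 : ℝ), (-1 : ℝ)) := rfl
  have a0 : ∀ l, ∑ e, (t * ρ e + (1 - t) * σ e) * n e l / c e < 0 ↔ a l < 0 := by
    intro l
    rw [ha, hz, hsumn]
    exact (h1 l 0 (Or.inl rfl)).1
  have a1 : ∀ l, ∑ e, (t * ρ e + (1 - t) * σ e) * n e l / c e < -1 ↔ a l < -1 := by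
    intro l
    rw [ha, hm1, hsumn]
    exact (h1 l (-1) (Or.inr rfl)).1
  have a2 : ∀ l, -1 < ∑ e, (t * ρ e + (1 - t) * σ e) * n e l / c e ↔ -1 < a l := by
    intro l
    rw [ha, hm1, hsumn]
    exact (h1 l (-1) (Or.inr rfl)).2
  have b1 : ∀ i, 1 < t * ρ (β i) + (1 - t) * σ (β i) ↔ 1 < b i := by
    intro i
    rw [hb, ho]
    exact (h2 i).2
  have b0 : ∀ i, t * ρ (β i) + (1 - t) * σ (β i) < 1 ↔ b i < 1 := by
    intro i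
    rw [hb, ho]
    exact (h2 i).1
  refine ⟨t, h4, h3, a0, a1, a2, fun l => ?_, fun l => ?_, b0, b1, fun i => ?_⟩
  · rw [← not_lt, a2, not_lt]
  · rw [← not_lt, a1, not_lt]
  · rw [← not_lt, b0, not_lt]

end Vale.Agent.P277.H762.G
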