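import Vale.Agent.P277.Stmts20
import Vale.Agent.P277.H884.N2

/-!
# P277, (G): the points at which the blow-up of a flipped surface is centred in `Bad`
-/

open scoped Manifold ContDiff Topology
open Vale.Agent.P272.K Vale.Agent.P285.H281.FD Vale.Agent.P267.H175 Set Filter Metric

noncomputable section

namespace Vale.Agent.P277.H762

open Vale.Agent.P277 Vale.Agent.P277.T2 Vale.Agent.P277.T3 Vale.Agent.P277.H884.N

variable {Y : Type} [TopologicalSpace Y] [ChartedSpace (Cm 4) Y] {X : CSp}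

omit [ChartedSpace (Cm 4) Y] in
/-- a lift of the sector `ξ ∘ bl` near a point which is not a `BadPt` is not centred in `Bad` -/
theorem exists_notBad_at {S : Set X.pt} {Bad : Set Y} {Cr : Y → X.pt → Prop} {O : Set Y}
    {v : Y → X.pt} (hv : InjOn v O) (hCr : ∀ y x, Cr y x → y ∈ O ∧ v y = x) {ξ : Cm 4 → X.pt}
    {r : ℝ} (hr : 0 < r) (hξ : H19.LocIso X ξ (ball 0 r))
    (hS : ∀ z ∈ ball (0 : Cm 4) r, z 0 = 0 → z 1 = 0 → ξ z ∈ S) {W₁ : Set (Cm 4)}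
    (hW₁ : IsOpen W₁) {γ : Cm 4 → Y} (hγ : ∀ w ∈ W₁, ContinuousAt γ w)
    (hbl : ∀ w ∈ W₁, bl w ∈ ball (0 : Cm 4) r) (hO1 : ∀ w ∈ W₁, ξ (bl w) ∈ v '' O → γ w ∈ O)
    (hO2 : ∀ w ∈ W₁, γ w ∈ O → v (γ w) = ξ (bl w)) {w₀ : Cm 4} (hw₀ : w₀ ∈ W₁) (h0 : w₀ 0 = 0)
    (hnb : ¬ BadPt S Cr Bad (ξ (bl w₀))) : ∃ w ∈ W₁, w 0 = 0 ∧ γ w ∉ Bad := by
  by_contra hcon
  push Not at hcon
  refine hnb ⟨ξ, r, W₁, w₀, γ, hr, hξ.inj, hξ.isOpenMap, fun z hz => hξ.hol z hz, hS, hW₁, hw₀, h0,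
    rfl, fun w hw => ⟨hbl w hw, hγ w hw, fun y hy => ?_, hcon w hw⟩⟩
  obtain ⟨h1, h2⟩ := hCr _ _ hy
  have h3 := hO1 w hw ⟨y, h1, h2⟩
  exact hv h3 h1 (by rw [hO2 w hw h3, h2])

omit [ChartedSpace (Cm 4) Y] in
/-- the same, if the `BadPt`s of `S` are contained in a curve -/
theorem exists_notBad {S : Set X.pt} {Bad : Set Y} {Cr : Y → X.pt → Prop} {O : Set Y}
    {v : Y → X.pt} (hv : InjOn v O) (hCr : ∀ y x, Cr y x → y ∈ O ∧ v y = x) {ξ : Cm 4 → X.pt}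
    {r : ℝ} (hr : 0 < r) (hξ : H19.LocIso X ξ (ball 0 r))
    (hS : ∀ z ∈ ball (0 : Cm 4) r, z 0 = 0 → z 1 = 0 → ξ z ∈ S) {W₁ : Set (Cm 4)}
    (hW₁ : IsOpen W₁) {γ : Cm 4 → Y} (hγ : ∀ w ∈ W₁, ContinuousAt γ w)
    (hbl : ∀ w ∈ W₁, bl w ∈ ball (0 : Cm 4) r) (hO1 : ∀ w ∈ W₁, ξ (bl w) ∈ v '' O → γ w ∈ O)
    (hO2 : ∀ w ∈ W₁, γ w ∈ O → v (γ w) = ξ (bl w)) {w₀ : Cm 4} (hw₀ : w₀ ∈ W₁) (h0 : w₀ 0 = 0)
    (hT : DimLe X 1 {x | BadPt S Cr Bad x}) : ∃ w ∈ W₁, w 0 = 0 ∧ γ w ∉ Bad := by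
  let ins : Cm 4 → Cm 4 := fun z => ![0, w₀ 1, z 2, z 3]
  have hins : Continuous ins := by
    refine continuous_pi fun i => ?_
    fin_cases i
    · exact continuous_const
    · exact continuous_const
    · exact continuous_apply 2
    · exact continuous_apply 3
  have hw₀' : ins (bl w₀) = w₀ := by
    ext i
    fin_cases i
    · exact h0.symm
    · rfl
    · rfl
    · rfl
  have hbl' : ∀ z : Cm 4, z 0 = 0 → z 1 = 0 → bl (ins z) = z := by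
    intro z h1 h2
    ext i
    fin_cases i
    · exact h1.symm
    · show (0 : ℂ) * w₀ 1 = z 1
      rw [zero_mul, h2]
    · rfl
    · rfl
  obtain ⟨z, ⟨hz1, hz2⟩, hz3, hz4, hz5⟩ := exists_notMem hξ hT
    (U := ball (0 : Cm 4) r ∩ ins ⁻¹' W₁) (isOpen_ball.inter (hW₁.preimage hins))
    inter_subset_left (w := bl w₀) ⟨hbl w₀ hw₀, by
      show ins (bl w₀) ∈ W₁
      rw [hw₀']; exact hw₀⟩ h0 (by
      show w₀ 0 * w₀ 1 = 0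
      rw [h0, zero_mul])
  refine exists_notBad_at hv hCr hr hξ hS hW₁ hγ hbl hO1 hO2 (w₀ := ins z) hz2 rfl ?_
  rw [hbl' z hz3 hz4]
  exact hz5

end Vale.Agent.P277.H762
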