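import Vale.Agent.P277.StmtsM
import Vale.Agent.P277.H762.G.T7L
import Vale.Agent.P277.H371.G.Chk
import Vale.Agent.P277.H762.G.LexT

/-!
# P277, (T7A), (T7B)
-/

set_option linter.unusedSectionVars false
set_option maxSynthPendingDepth 3

open scoped Manifold ContDiff Topology
open Vale.Agent.P272.K Vale.Agent.P285.H281.FD Vale.Agent.P267.H175 Set Filter Metric

noncomputable section

namespace Vale.Agent.P277.H762.G

open Vale.Agent.P277 Vale.Agent.P277.T2 Vale.Agent.P277.T3 Vale.Agent.P277.H29.CY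
  Vale.Agent.P277.H29.E

theorem badPt_sub {Y : Type} [TopologicalSpace Y] [ChartedSpace (Cm 4) Y] {X : CSp} {S : Set X.pt}
    {Cr : Y → X.pt → Prop} {Bad Bad' : Set Y} (hB : Bad ⊆ Bad') {x : X.pt}
    (h : BadPt S Cr Bad x) : BadPt S Cr Bad' x := by
  obtain ⟨ξ, r, W, w₀, γ, ch, h1, h2, h3, h4, h5, h6, h7, h8, h9, h10⟩ := h
  refine ⟨ξ, r, W, w₀, γ, ch, h1, h2, h3, h4, h5, h6, h7, h8, h9, fun w hw => ?_⟩
  obtain ⟨g1, g2, g3, g4, g5, g6⟩ := h10 w hw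
  exact ⟨g1, g2, g3, g4, g5, fun g7 => ⟨hB (g6 g7).1, (g6 g7).2⟩⟩

/-- the limits of values are contained in the total transform -/
theorem closure_val_sub {Y : Type} [TopologicalSpace Y] [T2Space Y] [CompactSpace Y] {X : CSp}
    {Cr : Y → X.pt → Prop} (hd : Dense {y | ∃ x, Cr y x}) {B : Set Y} (hB : IsClosed B) :
    closure (Val Cr B) ⊆ Tot Cr B := by
  refine closure_minimal ?_ (H884.G.isClosed_tot Cr hB)
  rintro x ⟨y, hy, h⟩
  refine ⟨y, hy, ?_⟩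
  rw [mem_closure_iff_nhds]
  intro U hU
  rw [nhds_prod_eq] at hU
  obtain ⟨V, hV, V', hV', hVV⟩ := Filter.mem_prod_iff.1 hU
  obtain ⟨y', ⟨h1, h2⟩, x', h3⟩ := mem_closure_iff_nhds.1 (hd y) _
    (inter_mem hV (h V' hV'))
  exact ⟨(y', x'), hVV ⟨h1, h2 x' h3⟩, h3⟩

/-- all but finitely many `X (j + 1)` are regular along the flipped surfaces outside the total
transform -/
theorem t6_lex {Y : Type} [TopologicalSpace Y] [T2Space Y] [CompactSpace Y]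
    [ChartedSpace (Cm 4) Y]
    [IsManifold 𝓘(ℂ, Cm 4) ω Y] {χ : Chart 4 Y → Cm 4 → Matrix (Fin 4) (Fin 4) ℂ}
    (hχ : IsKahler χ) {k s : ℕ} {M : Fin (k + s) → Bd Y} (hM : ∀ e, IsLB 4 (M e))
    (hnef : ∀ e : Fin k, Nef χ (M (Fin.castAdd s e))) {m : Fin (k + s) → ℕ}
    (hm : ∀ e : Fin k, 1 ≤ m (Fin.castAdd s e)) (hm0 : ∀ i : Fin s, m (Fin.natAdd k i) = 0)
    {ρ σ : Fin (k + s) → ℝ} (hρ : ∀ e, 0 ≤ ρ e) (hσ : ∀ e, 0 ≤ σ e) (hρσ : ∀ e, 0 < ρ e + σ e)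
    (hsum : ∑ e, ρ e * m e = 1) (hsum' : ∑ e, σ e * m e = 1) {H : Fin s → Type}
    [∀ i, TopologicalSpace (H i)] [∀ i, T2Space (H i)] [∀ i, CompactSpace (H i)]
    [∀ i, ConnectedSpace (H i)] [∀ i, ChartedSpace (Cm 3) (H i)]
    [∀ i, IsManifold 𝓘(ℂ, Cm 3) ω (H i)] {ι : ∀ i, H i → Y}
    {sg : ∀ i : Fin s, (M (Fin.natAdd k i)).ι → Y → ℂ}
    (hbd : ∀ i, IsBd (ι i) (M (Fin.natAdd k i)) (sg i))
    (hdisj : Pairwise fun i j => Disjoint (range (ι i)) (range (ι j)))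
    {W : CSp} {X Z : ℕ → CSp} {r : ℕ} {v : Y → W.pt} {p : W.pt → (X 0).pt} {P : Bd W.pt}
    {G : Fin r → Set Y} (hres : T2.IsRes v p P G) (hne : ∀ i, ¬ range (ι i) ⊆ ⋃ l, G l)
    {f : ∀ j, (X j).pt → (Z j).pt} {f' : ∀ j, (X (j + 1)).pt → (Z j).pt}
    {A : ∀ j, Set (Z j).pt} {L : ∀ j, Fin (k + s) → Bd (X j).pt} {c : ℕ → Fin (k + s) → ℕ}
    (hc : ∀ j e, 1 ≤ c j e) {n : Fin (k + s) → Fin r → ℤ}
    (hn : ∃ t, T2.IsCmpV (fun y => p (v y)) (L 0)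
      (fun e => (((Bd.can 4 Y).pow (m e)).mul (M e)).pow (c 0 e)) G n t)
    (hflip : ∀ j, ∀ t : ℝ, 0 < t → t ≤ 1 → IsFlipR (X j) (Z j) (X (j + 1)) (f j) (f' j) (A j)
      (L j) (L (j + 1)) (c j) (c (j + 1)) fun e => t * ρ e + (1 - t) * σ e)
    {a : Fin r → ℝ ×ₗ ℝ}
    (ha : ∀ l, a l = toLex (∑ e, σ e * n e l / c 0 e, ∑ e, ρ e * n e l / c 0 e))
    {b : Fin s → ℝ ×ₗ ℝ} (hb : ∀ i, b i = toLex (σ (Fin.natAdd k i), ρ (Fin.natAdd k i))) :
    ∃ J, ∀ j ≥ J, DimLe (X (j + 1)) 1 {x | f' j x ∈ Amin (f j) ∧ ¬ IsReg 4 (X (j + 1)) x ∧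
      x ∉ Tot (Cor (⋃ l, G l) (fun y => p (v y)) f f' (j + 1))
        (T3.bad ι G {l | a l < -1} {i | 1 < b i} ∪ cross ι G {l | -1 ≤ a l ∧ a l < 0})} := by
  obtain ⟨t, h4, h3, a0, a1, a2, a3, a4, b0, b1, b2⟩ := exists_t ρ σ n (c 0) (Fin.natAdd k) ha hb
  have hp := tau_pos hρ hσ hρσ h4 h3 (τ := fun e => t * ρ e + (1 - t) * σ e) fun e => rfl
  have hs := tau_sum hsum hsum' (τ := fun e => t * ρ e + (1 - t) * σ e) (t := t) fun e => rfl
  obtain ⟨L', c', τ, t', hc', hcmp, hcorr, hcc, hfl⟩ :=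
    H371.G.wrap_core (ι := ι) hM hm0 hbd hres hc hn fun j => hflip j t h4 h3.le
  have h' : IsPG χ M m (fun e => t * ρ e + (1 - t) * σ e) ι sg v p P G f f' A L' c' τ n t' :=
    ⟨hχ, hM, hnef, hm, hm0, hp, hs, hbd, hdisj, hres, hne, hc', hcmp, hcorr, hfl⟩
  have h1 := H335.CC.stT6fin Y χ k s M m _ H ι sg W X Z r v p P G f f' A L' c' τ n t' h'
    {l | a l < -1} {l | -1 ≤ a l ∧ a l < 0} {i | 1 < b i}
    (fun l hl hlK => by
      simp only [hcc]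
      by_contra h3
      exact hlK ⟨not_lt.1 hl, (a0 l).1 (not_le.1 h3)⟩)
    (fun i hi => by
      by_contra h5
      exact hi ((b1 i).1 (not_le.1 h5)))
    (fun l hl => by
      simp only [hcc]
      exact (a4 l).2 hl.1)
  obtain ⟨J, hJ⟩ := h1.bddAbove
  refine ⟨J + 1, fun j hj => ?_⟩
  by_contra hcon
  have := hJ (show j ∈ _ from hcon)
  omega

/-- (T7A) -/
theorem stT7A : T3.StT7A := by
  intro Y _ _ _ _ _ χ hχ k s M hM hnef m hm hm0 ρ σ hρ hσ hρσ hsum hsum' H _ _ _ _ _ _ ι sg hbd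
    hdisj W X Z r v p P G hres hne f f' A L c hc n hn hflip a ha b hb
  have h := (stT7L Y χ hχ k s M hM hnef m hm hm0 ρ σ hρ hσ hρσ hsum hsum' H ι sg hbd
    hdisj W X Z r v p P G hres hne f f' A L c hc n hn hflip a ha b hb).1
  refine ⟨?_, t6_lex hχ hM hnef hm hm0 hρ hσ hρσ hsum hsum' hbd hdisj hres hne hc hn hflip ha hb⟩
  rintro ⟨⟨J, h1⟩, h2⟩
  refine h ⟨⟨J, fun j hj => (h1 j hj).mono fun x hx => badPt_sub inter_subset_left hx⟩,
    fun j => (h2 j).mono ?_⟩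
  have hrc : ∀ i, IsClosed (range (ι i)) := fun i =>
    (isCompact_range (hbd i).sub.cont).isClosed
  rintro x ⟨g1, g2, g3⟩
  refine ⟨g1, g2, g3.imp (fun g4 => ?_) id⟩
  refine H884.G.tot_mono (closure_minimal inter_subset_left ?_) g4
  exact (T3.isClosed_bad hres.closed fun i => (hbd i).sub.cont).union
    (H335.KK.isClosed_cross hres.closed hrc)

/-- (T7B) -/
theorem stT7B : T3.StT7B := by
  intro Y _ _ _ _ _ χ hχ k s M hM hnef m hm hm0 ρ σ hρ hσ hρσ hsum hsum' H _ _ _ _ _ _ ι sg hbd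
    hdisj W X Z r v p P G hres hne f f' A L c hc n hn hflip a ha b hb
  obtain ⟨h1, h2, h3⟩ := stT7L Y χ hχ k s M hM hnef m hm hm0 ρ σ hρ hσ hρσ hsum hsum' H ι sg hbd
    hdisj W X Z r v p P G hres hne f f' A L c hc n hn hflip a ha b hb
  refine ⟨h2, fun N hN0 hNs => ?_, h3⟩
  by_contra hcon
  push Not at hcon
  have hflip1 : ∀ j, IsFlipR (X j) (Z j) (X (j + 1)) (f j) (f' j) (A j) (L j) (L (j + 1)) (c j)
      (c (j + 1)) ρ := fun j => by simpa using hflip j 1 one_pos le_rfl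
  have hsm : ∀ j, IsSmall (X j) (Z j) (f j) (Amin (f j)) := fun j =>
    (H371.C.IsFlipR.amin (hflip1 j) (hc j)).small
  have hsm' : ∀ j, IsSmall (X (j + 1)) (Z j) (f' j) (Amin (f j)) := fun j =>
    (H371.C.IsFlipR.amin (hflip1 j) (hc j)).small'
  have hseq := H371.C.isSeq_sq hsm hsm' hres.emb' (by
    refine (hres.dim).mono ?_
    intro x hx
    obtain ⟨w, rfl⟩ := hres.psurj x
    obtain ⟨y, rfl⟩ := hres.surj w
    refine ⟨y, ?_, rfl⟩
    by_contra hy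
    exact hx ⟨y, hy, rfl⟩)
  have hcr : ∀ j, ∀ y ∈ (H371.C.sq f hsm' (⋃ l, G l)ᶜ (fun y => p (v y)) j).1,
      Cor (⋃ l, G l) (fun y => p (v y)) f f' j y
        ((H371.C.sq f hsm' (⋃ l, G l)ᶜ (fun y => p (v y)) j).2 y) := by
    intro j
    induction j with
    | zero => exact fun y hy => ⟨hy, rfl⟩
    | succ j ih => exact fun y hy => ⟨_, ih y hy.1, ((hsm' j).sec_eq _).symm, hy.2⟩
  have hdim : ∀ j, DimLe (X j) 2 {x | ∃ y, Cor (⋃ l, G l) (fun y => p (v y)) f f' j y x}ᶜ := by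
    intro j
    refine (hseq.dim j).mono fun x hx hx' => hx ?_
    obtain ⟨y, hy, rfl⟩ := hx'
    exact ⟨y, hcr j y hy⟩
  have hdO : ∀ j, Dense (H371.C.sq f hsm' (⋃ l, G l)ᶜ (fun y => p (v y)) j).1 := by
    intro j
    induction j with
    | zero => exact H615.dense_compl_iUnion_hyp hres.hyp hres.closed
    | succ j ih =>
      rw [dense_iff_inter_open]
      intro V hV hVn
      obtain ⟨y₁, hy₁⟩ := ih.inter_open_nonempty V hV hVn
      have h4 : IsOpen ((H371.C.sq f hsm' (⋃ l, G l)ᶜ (fun y => p (v y)) j).2 ''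
          (V ∩ (H371.C.sq f hsm' (⋃ l, G l)ᶜ (fun y => p (v y)) j).1)) :=
        (hseq.emb j).isOpenMap _ inter_subset_right (hV.inter (hseq.emb j).isOpen)
      obtain ⟨_, ⟨y, hy, rfl⟩, h5⟩ := (dense_compl_of_dimLe (by norm_num)
        (hflip1 j).normal.dense (hsm j).dim).inter_open_nonempty _ h4 ⟨_, y₁, hy₁, rfl⟩
      exact ⟨y, hy.1, hy.2, h5⟩
  have hdns : ∀ j, Dense {y | ∃ x, Cor (⋃ l, G l) (fun y => p (v y)) f f' j y x} := fun j =>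
    (hdO j).mono fun y hy => ⟨_, hcr j y hy⟩
  have hvc : Continuous fun y => p (v y) := hres.cont.comp (continuousOn_univ.1 hres.emb.cont)
  set Bt : Set Y := T3.bad ι G {l | a l < 0 ∧ (a l ≤ -1 ∨ ZD (fun y => p (v y)) (hit f f') (G l))}
    {i | 1 ≤ b i} ∪ cross ι G {l | -1 < a l ∧ a l < 0} with hBt
  -- the points of the flipped loci in the total transform of `Bt`
  have htot : ∀ j, ∀ x, f' j x ∈ Amin (f j) → x ∈ Tot (Cor (⋃ l, G l) (fun y => p (v y)) f f'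
      (j + 1)) Bt → x ∈ N (j + 1) := by
    rintro j x hx ⟨y, hy, hyx⟩
    have hyH : p (v y) ∈ hit f f' := by
      by_contra hyH
      obtain ⟨x', hx', hcv⟩ := cont_offH' (D := ⋃ l, G l) (v := fun y => p (v y)) hsm hsm' hvc
        hyH j
      rw [← eq_of_tot hcv hyx] at hx'
      exact hx' hx
    exact H371.G.tot_sub hvc (fun j => (hsm j).cont) (fun j => (hsm' j).cont)
      (B := {y | y ∈ Bt ∧ p (v y) ∈ hit f f'}) (fun y hy => hN0 y hy.1 hy.2) hNs (j + 1)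
      ⟨y, ⟨hy, hyH⟩, hyx⟩
  have hrc : ∀ i, IsClosed (range (ι i)) := fun i =>
    (isCompact_range (hbd i).sub.cont).isClosed
  refine h1 ⟨⟨0, fun j _ => (hcon j).mono ?_⟩, fun j => (hcon j).mono ?_⟩
  · intro x hx
    obtain ⟨g1, g2⟩ := H371.G.badPt_mem (hdim (j + 1)) hx
    exact ⟨htot j x g1 (H884.G.tot_mono inter_subset_left g2), g1⟩
  · rintro x ⟨g1, -, g3⟩
    refine ⟨htot j x g1 ?_, g1⟩
    rcases g3 with g3 | g3
    · have hcl : IsClosed (T3.bad ι G {l | a l < -1} {i | 1 < b i} ∪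
          cross ι G {l | -1 ≤ a l ∧ a l < 0}) :=
        (T3.isClosed_bad hres.closed fun i => (hbd i).sub.cont).union
          (H335.KK.isClosed_cross hres.closed hrc)
      refine H884.G.tot_mono ((closure_minimal inter_subset_left hcl).trans ?_) g3
      have hm1 : (-1 : ℝ ×ₗ ℝ) < 0 := by
        show toLex ((-1 : ℝ), (-1 : ℝ)) < toLex ((0 : ℝ), (0 : ℝ))
        rw [Prod.Lex.toLex_lt_toLex]
        left
        norm_num
      rintro y ((hy | hy) | ⟨l, hl, hy, hy'⟩)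
      · obtain ⟨l, hl, hy⟩ := mem_iUnion₂.1 hy
        exact Or.inl (Or.inl (mem_iUnion₂.2 ⟨l, ⟨lt_trans hl hm1, Or.inl (le_of_lt hl)⟩, hy⟩))
      · obtain ⟨i, hi, hy⟩ := mem_iUnion₂.1 hy
        exact Or.inl (Or.inr (mem_iUnion₂.2 ⟨i, le_of_lt (show 1 < b i from hi), hy⟩))
      · rcases hl.1.eq_or_lt with h4 | h4
        · exact Or.inl (Or.inl (mem_iUnion₂.2 ⟨l, ⟨hl.2, Or.inl h4.symm.le⟩, hy⟩))
        · rcases hy' with ⟨l', hl', hne', hy'⟩ | ⟨i, hi⟩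
          · rcases hl'.1.eq_or_lt with h5 | h5
            · exact Or.inl (Or.inl (mem_iUnion₂.2 ⟨l', ⟨hl'.2, Or.inl h5.symm.le⟩, hy'⟩))
            · exact Or.inr ⟨l, ⟨h4, hl.2⟩, hy, Or.inl ⟨l', ⟨h5, hl'.2⟩, hne', hy'⟩⟩
          · exact Or.inr ⟨l, ⟨h4, hl.2⟩, hy, Or.inr ⟨i, hi⟩⟩
    · have hcl : IsClosed (⋃ l ∈ {l | (-1 ≤ a l ∧ a l < 0) ∧
          ZD (fun y => p (v y)) (hit f f') (G l)}, G l) :=
        (Set.toFinite _).isClosed_biUnion fun l _ => hres.closed l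
      refine H884.G.tot_mono ?_ (closure_val_sub (hdns (j + 1)) hcl g3)
      intro y hy
      obtain ⟨l, hl, hy⟩ := mem_iUnion₂.1 hy
      exact Or.inl (Or.inl (mem_iUnion₂.2 ⟨l, ⟨hl.1.2, Or.inr hl.2⟩, hy⟩))

end Vale.Agent.P277.H762.G
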